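import Vale.Agent.P109.F674.Done
import Vale.Agent.P109L.Move

/-!
# P109: a counterexample on the unit interval itself, for the widest notion of model
-/

open MeasureTheory
open Vale.Agent.P109.KS Vale.Agent.P109L

namespace Vale.Agent.Results.P109.ALiteral

/-- There is an ergodic invertible measure preserving transformation of `[0,1]` with Lebesgue
measure, of entropy zero, which has no smooth positive-volume model; first for the Borel sets of
`[0,1]`, then for the Lebesgue measurable sets (the completion). So the assertion of Q1 is false. -/
theorem result :
    (∃ T : unitInterval ≃ᵐ unitInterval,
      Ergodic T volume ∧ ksEntropy volume T = 0 ∧ ¬ HasModel volume T) ∧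
    ∃ T : NullMeasurableSpace unitInterval volume ≃ᵐ NullMeasurableSpace unitInterval volume,
      Ergodic T (volume : Measure unitInterval).completion ∧
        ksEntropy (volume : Measure unitInterval).completion T = 0 ∧
        ¬ HasModel (volume : Measure unitInterval).completion T := by
  obtain ⟨X, _, _, μ, _, T, ha, he, hk, hn⟩ := Vale.Agent.P109.F674.main_factor
  exact final_of T ha he hk hn

end Vale.Agent.Results.P109.ALiteral
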